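import Mathlib
import Vale.Agent.Lib.P036.Chain

/-!
# P036: Heilbronn's triangle problem for points on the graph of a convex function

For every convex function `f` from `[0, 1]` to `[0, 1]` and every set of `n ≥ 3` points on its
graph, some three of the points span a triangle of area at most `19 / (n - 2)^3`.
For `f x = x^2` and `n` equally spaced abscissae every triangle has area at least
`1 / (n - 1)^3`, so the order `n^(-3)` cannot be improved for this class.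
-/

namespace Vale.Agent.Results.P036.A_ConvexGraphs

open Vale.Agent.Lib.P036 Finset

/-- The area of the triangle with vertices `p`, `q`, `r`: half the absolute value of the
determinant of `q - p` and `r - p`. -/
noncomputable def triArea (p q r : ℝ × ℝ) : ℝ :=
  |(q.1 - p.1) * (r.2 - p.2) - (q.2 - p.2) * (r.1 - p.1)| / 2

theorem upper (f : ℝ → ℝ) (hf : ConvexOn ℝ (Set.Icc (0 : ℝ) 1) f)
    (hmaps : ∀ x ∈ Set.Icc (0 : ℝ) 1, f x ∈ Set.Icc (0 : ℝ) 1)
    (S : Finset ℝ) (hS : ∀ x ∈ S, x ∈ Set.Icc (0 : ℝ) 1) (h3 : 3 ≤ S.card) :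
    ∃ a ∈ S, ∃ b ∈ S, ∃ c ∈ S, a < b ∧ b < c ∧
      triArea (a, f a) (b, f b) (c, f c) ≤ 19 / ((S.card : ℝ) - 2) ^ 3 := by
  set e := S.orderEmbOfFin (rfl : S.card = S.card) with he
  let X : ℕ → ℝ := fun i => if h : i < S.card then e ⟨i, h⟩ else 0
  have hXmem : ∀ i, i < S.card → X i ∈ S := by
    intro i hi
    simp only [X, dif_pos hi]
    exact S.orderEmbOfFin_mem rfl _
  have hXlt : ∀ i j, i < j → j < S.card → X i < X j := by
    intro i j hij hj
    have hi : i < S.card := lt_trans hij hj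
    simp only [X, dif_pos hi, dif_pos hj]
    exact e.strictMono (Fin.mk_lt_mk.2 hij)
  obtain ⟨m, hm⟩ : ∃ m, S.card = m + 2 := ⟨S.card - 2, by omega⟩
  have hmpos : 0 < m := by omega
  have hXI : ∀ i, i ≤ m + 1 → X i ∈ Set.Icc (0 : ℝ) 1 :=
    fun i hi => hS _ (hXmem i (by omega))
  have hc : ∀ i < m, (X (i + 1 + 1) - X (i + 1)) * (f (X (i + 1)) - f (X i))
      ≤ (X (i + 1) - X i) * (f (X (i + 1 + 1)) - f (X (i + 1))) := by
    intro i hi
    have h1 : X i < X (i + 1) := hXlt _ _ (by omega) (by omega)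
    have h2 : X (i + 1) < X (i + 1 + 1) := hXlt _ _ (by omega) (by omega)
    have hs := hf.slope_mono_adjacent (hXI i (by omega)) (hXI (i + 1 + 1) (by omega)) h1 h2
    rw [div_le_div_iff₀ (sub_pos.2 h1) (sub_pos.2 h2)] at hs
    linarith
  obtain ⟨i, hi, hD⟩ := chain_main m hmpos X (fun i => f (X i))
    (fun i hi => hXlt _ _ (by omega) (by omega)) (hXI 0 (by omega)).1 (hXI (m + 1) le_rfl).2
    (fun i hi => hmaps _ (hXI i hi)) hc
  have hD0 := hc i hi
  refine ⟨X i, hXmem i (by omega), X (i + 1), hXmem _ (by omega), X (i + 1 + 1),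
    hXmem _ (by omega), hXlt _ _ (by omega) (by omega), hXlt _ _ (by omega) (by omega), ?_⟩
  have hcard : (S.card : ℝ) - 2 = m := by
    rw [hm]
    push_cast
    ring
  have hmR : (0 : ℝ) < m := by exact_mod_cast hmpos
  have hdet : (X (i + 1) - X i) * (f (X (i + 1 + 1)) - f (X i))
      - (f (X (i + 1)) - f (X i)) * (X (i + 1 + 1) - X i)
      = (X (i + 1) - X i) * (f (X (i + 1 + 1)) - f (X (i + 1)))
        - (X (i + 1 + 1) - X (i + 1)) * (f (X (i + 1)) - f (X i)) := by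
    ring
  have ht : (0 : ℝ) ≤ 1 / (m : ℝ) ^ 3 := by positivity
  have e1 : (10 / (3 * (m : ℝ))) ^ 3 = 1000 / 27 * (1 / (m : ℝ) ^ 3) := by
    field_simp
    ring
  have e2 : 19 / (m : ℝ) ^ 3 = 19 * (1 / (m : ℝ) ^ 3) := by
    ring
  unfold triArea
  simp only
  rw [hdet, abs_of_nonneg (by linarith), hcard, e2]
  rw [e1] at hD
  linarith

theorem upper_concave (f : ℝ → ℝ) (hf : ConcaveOn ℝ (Set.Icc (0 : ℝ) 1) f)
    (hmaps : ∀ x ∈ Set.Icc (0 : ℝ) 1, f x ∈ Set.Icc (0 : ℝ) 1)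
    (S : Finset ℝ) (hS : ∀ x ∈ S, x ∈ Set.Icc (0 : ℝ) 1) (h3 : 3 ≤ S.card) :
    ∃ a ∈ S, ∃ b ∈ S, ∃ c ∈ S, a < b ∧ b < c ∧
      triArea (a, f a) (b, f b) (c, f c) ≤ 19 / ((S.card : ℝ) - 2) ^ 3 := by
  have hg : ConvexOn ℝ (Set.Icc (0 : ℝ) 1) (fun x => 1 - f x) := by
    have h1 := hf.neg.add_const 1
    have e : (fun x => 1 - f x) = (-f + fun _ => (1 : ℝ)) := by
      funext x
      simp only [Pi.add_apply, Pi.neg_apply]
      ring
    rw [e]
    exact h1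
  have hgm : ∀ x ∈ Set.Icc (0 : ℝ) 1, (fun x => 1 - f x) x ∈ Set.Icc (0 : ℝ) 1 := by
    intro x hx
    have := hmaps x hx
    exact ⟨by linarith [this.2], by linarith [this.1]⟩
  obtain ⟨a, ha, b, hb, c, hc, hab, hbc, hA⟩ := upper _ hg hgm S hS h3
  refine ⟨a, ha, b, hb, c, hc, hab, hbc, ?_⟩
  have e : triArea (a, f a) (b, f b) (c, f c)
      = triArea (a, (fun x => 1 - f x) a) (b, (fun x => 1 - f x) b) (c, (fun x => 1 - f x) c) := by
    unfold triArea
    simp only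
    rw [← abs_neg]
    congr 2
    ring
  rw [e]
  exact hA

theorem lower (n : ℕ) (hn : 3 ≤ n) :
    ∃ S : Finset ℝ, S.card = n ∧ (∀ x ∈ S, x ∈ Set.Icc (0 : ℝ) 1) ∧
      ∀ a ∈ S, ∀ b ∈ S, ∀ c ∈ S, a < b → b < c →
        1 / ((n : ℝ) - 1) ^ 3 ≤ triArea (a, a ^ 2) (b, b ^ 2) (c, c ^ 2) := by
  have hn1 : (0 : ℝ) < (n : ℝ) - 1 := by
    have : (3 : ℝ) ≤ n := by exact_mod_cast hn
    linarith
  have hinj : Function.Injective (fun i : ℕ => (i : ℝ) / ((n : ℝ) - 1)) := by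
    intro i j hij
    have h1 : (i : ℝ) = j := by
      have := congrArg (fun t => t * ((n : ℝ) - 1)) hij
      simpa [div_mul_cancel₀ _ hn1.ne'] using this
    exact_mod_cast h1
  have hgap : ∀ a ∈ (range n).image (fun i : ℕ => (i : ℝ) / ((n : ℝ) - 1)),
      ∀ b ∈ (range n).image (fun i : ℕ => (i : ℝ) / ((n : ℝ) - 1)),
      a < b → 1 / ((n : ℝ) - 1) ≤ b - a := by
    intro a ha b hb hab
    obtain ⟨i, -, rfl⟩ := mem_image.1 ha
    obtain ⟨j, -, rfl⟩ := mem_image.1 hb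
    have hij : (i : ℝ) < j := by
      have := (div_lt_div_iff_of_pos_right hn1).1 hab
      exact this
    have hij' : i + 1 ≤ j := by exact_mod_cast hij
    have hij'' : (i : ℝ) + 1 ≤ j := by exact_mod_cast hij'
    rw [← sub_div]
    exact div_le_div_of_nonneg_right (by linarith) hn1.le
  refine ⟨(range n).image (fun i : ℕ => (i : ℝ) / ((n : ℝ) - 1)), ?_, ?_, ?_⟩
  · rw [card_image_of_injective _ hinj, card_range]
  · intro x hx
    obtain ⟨i, hi, rfl⟩ := mem_image.1 hx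
    have hi' : (i : ℝ) ≤ (n : ℝ) - 1 := by
      have : i + 1 ≤ n := mem_range.1 hi
      have : ((i + 1 : ℕ) : ℝ) ≤ n := by exact_mod_cast this
      push_cast at this
      linarith
    exact ⟨by positivity, (div_le_one hn1).2 hi'⟩
  · intro a ha b hb c hc hab hbc
    have h1 := hgap a ha b hb hab
    have h2 := hgap b hb c hc hbc
    have hd : (0 : ℝ) < 1 / ((n : ℝ) - 1) := by positivity
    have e : (b - a) * (c ^ 2 - a ^ 2) - (b ^ 2 - a ^ 2) * (c - a)
        = (b - a) * (c - a) * (c - b) := by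
      ring
    have hprod : 1 / ((n : ℝ) - 1) * (2 * (1 / ((n : ℝ) - 1))) * (1 / ((n : ℝ) - 1))
        ≤ (b - a) * (c - a) * (c - b) := by
      have h3 : 2 * (1 / ((n : ℝ) - 1)) ≤ c - a := by linarith
      have h4 : 1 / ((n : ℝ) - 1) * (2 * (1 / ((n : ℝ) - 1))) ≤ (b - a) * (c - a) :=
        mul_le_mul h1 h3 (by positivity) (by linarith)
      exact mul_le_mul h4 h2 hd.le (by nlinarith)
    have e3 : 1 / ((n : ℝ) - 1) ^ 3
        = 1 / ((n : ℝ) - 1) * (2 * (1 / ((n : ℝ) - 1))) * (1 / ((n : ℝ) - 1)) / 2 := by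
      field_simp
    unfold triArea
    simp only
    rw [e, abs_of_nonneg (le_trans (by positivity) hprod), e3]
    linarith

/-- **Heilbronn's triangle problem on convex curves.**  Here `triArea p q r` is the area of
the triangle `pqr`.

1. If `f` is convex on `[0, 1]` with values in `[0, 1]` and `S` is a set of `n ≥ 3` abscissae
   in `[0, 1]`, then three of the `n` points `(x, f x)`, `x ∈ S`, of the unit square span a
   triangle of area at most `19 / (n - 2)^3`.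
2. The same for concave `f`.
3. For `f x = x^2` and every `n ≥ 3` there is a set `S` of `n` abscissae in `[0, 1]` such that
   every triangle spanned by three of the points `(x, x^2)`, `x ∈ S`, has area at least
   `1 / (n - 1)^3`. -/
theorem result :
    (∀ f : ℝ → ℝ, ConvexOn ℝ (Set.Icc (0 : ℝ) 1) f →
      (∀ x ∈ Set.Icc (0 : ℝ) 1, f x ∈ Set.Icc (0 : ℝ) 1) →
      ∀ S : Finset ℝ, (∀ x ∈ S, x ∈ Set.Icc (0 : ℝ) 1) → 3 ≤ S.card →
      ∃ a ∈ S, ∃ b ∈ S, ∃ c ∈ S, a < b ∧ b < c ∧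
        triArea (a, f a) (b, f b) (c, f c) ≤ 19 / ((S.card : ℝ) - 2) ^ 3) ∧
    (∀ f : ℝ → ℝ, ConcaveOn ℝ (Set.Icc (0 : ℝ) 1) f →
      (∀ x ∈ Set.Icc (0 : ℝ) 1, f x ∈ Set.Icc (0 : ℝ) 1) →
      ∀ S : Finset ℝ, (∀ x ∈ S, x ∈ Set.Icc (0 : ℝ) 1) → 3 ≤ S.card →
      ∃ a ∈ S, ∃ b ∈ S, ∃ c ∈ S, a < b ∧ b < c ∧
        triArea (a, f a) (b, f b) (c, f c) ≤ 19 / ((S.card : ℝ) - 2) ^ 3) ∧
    (∀ n : ℕ, 3 ≤ n → ∃ S : Finset ℝ, S.card = n ∧ (∀ x ∈ S, x ∈ Set.Icc (0 : ℝ) 1) ∧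
      ∀ a ∈ S, ∀ b ∈ S, ∀ c ∈ S, a < b → b < c →
        1 / ((n : ℝ) - 1) ^ 3 ≤ triArea (a, a ^ 2) (b, b ^ 2) (c, c ^ 2)) :=
  ⟨upper, upper_concave, lower⟩

end Vale.Agent.Results.P036.A_ConvexGraphs
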