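import Mathlib

namespace Vale.Agent.Results.P036.A_PointsOnCurves

open Set

/-- The area of the triangle `pqr`, as in the problem: half the absolute value of the
determinant of `q - p` and `r - p`. -/
noncomputable def area (p q r : ℝ × ℝ) : ℝ :=
  |(q.1 - p.1) * (r.2 - p.2) - (r.1 - p.1) * (q.2 - p.2)| / 2

theorem three_point {g : ℝ → ℝ} {s : Set ℝ} (hg : ConvexOn ℝ s g) {a b c : ℝ}
    (ha : a ∈ s) (hc : c ∈ s) (hab : a < b) (hbc : b < c) :
    (c - a) * g b ≤ (c - b) * g a + (b - a) * g c := by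
  have h := hg.slope_mono_adjacent ha hc hab hbc
  rw [div_le_div_iff₀ (by linarith) (by linarith)] at h
  nlinarith

/-- Three points with increasing abscissae on a curve `y = φ x` whose second derivative is
bounded by `M` (in the sense that `M/2 x^2 ± φ x` are convex), within a window of length `L`,
span a triangle of area at most `M L^3 / 16`. -/
theorem area_le {M : ℝ} {φ : ℝ → ℝ}
    (hg : ConvexOn ℝ (Icc (0 : ℝ) 1) (fun x => M / 2 * x ^ 2 + φ x))
    (hh : ConvexOn ℝ (Icc (0 : ℝ) 1) (fun x => M / 2 * x ^ 2 - φ x))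
    {a b c L : ℝ} (ha : a ∈ Icc (0 : ℝ) 1) (hc : c ∈ Icc (0 : ℝ) 1) (hab : a < b) (hbc : b < c)
    (hL : c - a ≤ L) : area (a, φ a) (b, φ b) (c, φ c) ≤ M * L ^ 3 / 16 := by
  have h1 := three_point hg ha hc hab hbc
  have h2 := three_point hh ha hc hab hbc
  have hV : 0 < (b - a) * (c - b) * (c - a) := by
    have := mul_pos (mul_pos (sub_pos.2 hab) (sub_pos.2 hbc)) (sub_pos.2 (hab.trans hbc))
    exact this
  set V := (b - a) * (c - b) * (c - a) with hVdef
  set D := (b - a) * (φ c - φ a) - (c - a) * (φ b - φ a) with hDdef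
  have e1 : 0 ≤ M / 2 * V + D := by
    rw [hVdef, hDdef]
    nlinarith
  have e2 : 0 ≤ M / 2 * V - D := by
    rw [hVdef, hDdef]
    nlinarith
  have hM : 0 ≤ M := by
    by_contra hneg
    push Not at hneg
    nlinarith
  have hVL : V ≤ L ^ 3 / 4 := by
    have hca : 0 < c - a := by linarith
    have h3 : (b - a) * (c - b) ≤ (c - a) ^ 2 / 4 := by nlinarith [sq_nonneg ((b - a) - (c - b))]
    have h4 : (c - a) ^ 3 ≤ L ^ 3 := pow_le_pow_left₀ hca.le hL 3
    have h5 : V ≤ (c - a) ^ 3 / 4 := by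
      rw [hVdef]
      nlinarith
    linarith
  have hD : |D| ≤ M / 2 * V := abs_le.2 ⟨by linarith, by linarith⟩
  unfold area
  simp only
  rw [← hDdef]
  nlinarith

/-- Point sets covered by `k` curves `y = f c x` over `[0,1]` with second derivative bounded by
`M`: more than `2 k m` points span a triangle of area at most `M / (16 m^3)`; and the bound is
attained by `2 m + 1` equally spaced points on the parabola `y = x^2` (one curve, `M = 2`). -/
theorem result :
    (∀ (M : ℝ) (k m n : ℕ) (f : Fin k → ℝ → ℝ) (P : Fin n → ℝ × ℝ),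
      (∀ c, ConvexOn ℝ (Icc (0 : ℝ) 1) (fun x => M / 2 * x ^ 2 + f c x)) →
      (∀ c, ConvexOn ℝ (Icc (0 : ℝ) 1) (fun x => M / 2 * x ^ 2 - f c x)) →
      Function.Injective P →
      (∀ i, (P i).1 ∈ Icc (0 : ℝ) 1) →
      (∀ i, ∃ c, (P i).2 = f c (P i).1) →
      0 < m → 2 * k * m < n →
      ∃ i j l : Fin n, i ≠ j ∧ i ≠ l ∧ j ≠ l ∧
        area (P i) (P j) (P l) ≤ M / (16 * (m : ℝ) ^ 3)) ∧
    (∀ m : ℕ, 0 < m → ∀ i j l : Fin (2 * m + 1), i < j → j < l →
      1 / (8 * (m : ℝ) ^ 3) ≤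
        area ((i : ℝ) / (2 * m), ((i : ℝ) / (2 * m)) ^ 2)
          ((j : ℝ) / (2 * m), ((j : ℝ) / (2 * m)) ^ 2)
          ((l : ℝ) / (2 * m), ((l : ℝ) / (2 * m)) ^ 2)) := by
  refine ⟨?_, ?_⟩
  · intro M k m n f P hg hh hinj hx hcov hm hn
    choose c hc using hcov
    have hmR : (0 : ℝ) < m := by exact_mod_cast hm
    have hbin : ∀ i, min ⌊(P i).1 * m⌋₊ (m - 1) < m :=
      fun i => lt_of_le_of_lt (min_le_right _ _) (Nat.sub_lt hm one_pos)
    have hlo : ∀ i, ((min ⌊(P i).1 * m⌋₊ (m - 1) : ℕ) : ℝ) ≤ (P i).1 * m := by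
      intro i
      have h0 : 0 ≤ (P i).1 * m := mul_nonneg (hx i).1 hmR.le
      have h1 : ((⌊(P i).1 * m⌋₊ : ℕ) : ℝ) ≤ (P i).1 * m := Nat.floor_le h0
      have h2 : ((min ⌊(P i).1 * m⌋₊ (m - 1) : ℕ) : ℝ) ≤ (⌊(P i).1 * m⌋₊ : ℕ) := by
        exact_mod_cast min_le_left _ _
      linarith
    have hhi : ∀ i, (P i).1 * m ≤ ((min ⌊(P i).1 * m⌋₊ (m - 1) : ℕ) : ℝ) + 1 := by
      intro i
      rcases le_total ⌊(P i).1 * m⌋₊ (m - 1) with hle | hle
      · rw [min_eq_left hle]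
        exact (Nat.lt_floor_add_one _).le
      · rw [min_eq_right hle]
        have h1 : (P i).1 * m ≤ 1 * m := mul_le_mul_of_nonneg_right (hx i).2 hmR.le
        have h2 : (((m - 1 : ℕ) : ℝ)) = (m : ℝ) - 1 := by
          rw [Nat.cast_sub hm]
          simp
        rw [h2]
        linarith
    have hcard : Fintype.card (Fin k × Fin m) * 2 < Fintype.card (Fin n) := by
      simp only [Fintype.card_prod, Fintype.card_fin]
      nlinarith
    obtain ⟨y, hy⟩ := Fintype.exists_lt_card_fiber_of_mul_lt_card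
      (fun i : Fin n => ((c i, (⟨min ⌊(P i).1 * m⌋₊ (m - 1), hbin i⟩ : Fin m)) : Fin k × Fin m)) hcard
    obtain ⟨i, j, l, hi, hj, hl, hij, hil, hjl⟩ := Finset.two_lt_card_iff.1 hy
    simp only [Finset.mem_filter, Finset.mem_univ, true_and] at hi hj hl
    -- the three points lie on the same curve and in the same window
    have key : ∀ i j : Fin n,
        ((c i, (⟨min ⌊(P i).1 * m⌋₊ (m - 1), hbin i⟩ : Fin m)) : Fin k × Fin m) = y →
        ((c j, (⟨min ⌊(P j).1 * m⌋₊ (m - 1), hbin j⟩ : Fin m)) : Fin k × Fin m) = y →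
        c i = c j ∧ (P j).1 - (P i).1 ≤ 1 / m := by
      intro i j hi hj
      have e := hi.trans hj.symm
      have ec : c i = c j := (Prod.ext_iff.1 e).1
      have eb : min ⌊(P i).1 * m⌋₊ (m - 1) = min ⌊(P j).1 * m⌋₊ (m - 1) :=
        Fin.mk.inj_iff.1 (Prod.ext_iff.1 e).2
      refine ⟨ec, ?_⟩
      have h1 := hlo i
      have h2 := hhi j
      rw [eb] at h1
      have h3 : ((P j).1 - (P i).1) * m ≤ 1 := by linarith
      rw [le_div_iff₀ hmR]
      exact h3
    have xne : ∀ i j : Fin n, i ≠ j → c i = c j → (P i).1 ≠ (P j).1 := by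
      intro i j hne hcc hxx
      apply hne
      apply hinj
      refine Prod.ext hxx ?_
      rw [hc i, hc j, hcc, hxx]
    -- sorted triples
    have sorted : ∀ i j l : Fin n, c i = c j → c i = c l → (P i).1 < (P j).1 → (P j).1 < (P l).1 →
        (P l).1 - (P i).1 ≤ 1 / m → area (P i) (P j) (P l) ≤ M / (16 * (m : ℝ) ^ 3) := by
      intro i j l hcij hcil hij hjl hwin
      have h := area_le (hg (c i)) (hh (c i)) (hx i) (hx l) hij hjl hwin
      have e1 : P i = ((P i).1, f (c i) (P i).1) := Prod.ext rfl (hc i)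
      have e2 : P j = ((P j).1, f (c i) (P j).1) := Prod.ext rfl (by rw [hc j, hcij])
      have e3 : P l = ((P l).1, f (c i) (P l).1) := Prod.ext rfl (by rw [hc l, hcil])
      rw [e1, e2, e3]
      refine h.trans (le_of_eq ?_)
      field_simp
    obtain ⟨cij, wij⟩ := key i j hi hj
    obtain ⟨cil, wil⟩ := key i l hi hl
    obtain ⟨cjl, wjl⟩ := key j l hj hl
    obtain ⟨cji, wji⟩ := key j i hj hi
    obtain ⟨cli, wli⟩ := key l i hl hi
    obtain ⟨clj, wlj⟩ := key l j hl hj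
    have nij := xne i j hij cij
    have nil := xne i l hil cil
    have njl := xne j l hjl cjl
    rcases lt_or_gt_of_ne nij with hij' | hij' <;> rcases lt_or_gt_of_ne nil with hil' | hil' <;>
      rcases lt_or_gt_of_ne njl with hjl' | hjl'
    · exact ⟨i, j, l, hij, hil, hjl, sorted i j l cij cil hij' hjl' wil⟩
    · exact ⟨i, l, j, hil, hij, hjl.symm, sorted i l j cil cij hil' hjl' wij⟩
    · exact absurd (hij'.trans hjl') (not_lt.2 hil'.le)
    · exact ⟨l, i, j, hil.symm, hjl.symm, hij, sorted l i j cli clj hil' hij' wlj⟩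
    · exact ⟨j, i, l, hij.symm, hjl, hil, sorted j i l cji cjl hij' hil' wjl⟩
    · exact absurd (hjl'.trans hij') (not_lt.2 hil'.le)
    · exact ⟨j, l, i, hjl, hij.symm, hil.symm, sorted j l i cjl cji hjl' hil' wji⟩
    · exact ⟨l, j, i, hjl.symm, hil.symm, hij.symm, sorted l j i clj cli hjl' hij' wli⟩
  · intro m hm i j l hij hjl
    have hmR : (0 : ℝ) < m := by exact_mod_cast hm
    have hij' : (i : ℝ) + 1 ≤ j := by exact_mod_cast Nat.succ_le_of_lt (Fin.lt_def.1 hij)
    have hjl' : (j : ℝ) + 1 ≤ l := by exact_mod_cast Nat.succ_le_of_lt (Fin.lt_def.1 hjl)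
    unfold area
    simp only
    have e : ((j : ℝ) / (2 * m) - (i : ℝ) / (2 * m)) * (((l : ℝ) / (2 * m)) ^ 2 - ((i : ℝ) / (2 * m)) ^ 2)
        - ((l : ℝ) / (2 * m) - (i : ℝ) / (2 * m)) * (((j : ℝ) / (2 * m)) ^ 2 - ((i : ℝ) / (2 * m)) ^ 2)
        = ((j : ℝ) - i) * ((l : ℝ) - i) * ((l : ℝ) - j) / (8 * (m : ℝ) ^ 3) := by
      field_simp
      ring
    rw [e]
    have hprod : (2 : ℝ) ≤ ((j : ℝ) - i) * ((l : ℝ) - i) * ((l : ℝ) - j) := by
      have a1 : (1 : ℝ) ≤ (j : ℝ) - i := by linarith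
      have a2 : (2 : ℝ) ≤ (l : ℝ) - i := by linarith
      have a3 : (1 : ℝ) ≤ (l : ℝ) - j := by linarith
      have a4 : (2 : ℝ) ≤ ((j : ℝ) - i) * ((l : ℝ) - i) := by nlinarith
      nlinarith
    have hpos : (0 : ℝ) < 8 * (m : ℝ) ^ 3 := by positivity
    rw [abs_of_nonneg (div_nonneg (by linarith) hpos.le)]
    rw [div_div, div_le_div_iff₀ hpos (by positivity)]
    nlinarith

end Vale.Agent.Results.P036.A_PointsOnCurves
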