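import Mathlib
import Vale.Agent.Lib.P036.Position

/-!
# P036: Heilbronn's triangle problem for point sets in convex position

Every set of `n ≥ 7` points of the unit square in convex position contains three points spanning
a triangle of area at most `152 / (n - 6)^3`; and for every `n ≥ 3` there is a set of `n` points
of the unit square in convex position all of whose triangles have area at least `1 / (n - 1)^3`.
-/

namespace Vale.Agent.Results.P036.B_ConvexPosition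

open Vale.Agent.Lib.P036 Finset

/-- The area of the triangle with vertices `p`, `q`, `r`: half the absolute value of the
determinant of `q - p` and `r - p`. -/
noncomputable def triArea (p q r : ℝ × ℝ) : ℝ :=
  |(q.1 - p.1) * (r.2 - p.2) - (q.2 - p.2) * (r.1 - p.1)| / 2

theorem upper (P : Finset (ℝ × ℝ))
    (hsq : ∀ p ∈ P, p.1 ∈ Set.Icc (0 : ℝ) 1 ∧ p.2 ∈ Set.Icc (0 : ℝ) 1)
    (hCI : ConvexIndependent ℝ (Subtype.val : ↥(P : Set (ℝ × ℝ)) → ℝ × ℝ))
    (h7 : 7 ≤ P.card) :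
    ∃ p ∈ P, ∃ q ∈ P, ∃ r ∈ P, p ≠ q ∧ p ≠ r ∧ q ≠ r ∧
      triArea p q r ≤ 152 / ((P.card : ℝ) - 6) ^ 3 := by
  have h := convexIndependent_set_iff_notMem_convexHull_sdiff.1 hCI
  exact convex_position_main P hsq (fun q hq => h q (mem_coe.2 hq)) h7

theorem prod3 {a b c x y z : ℝ} (h1 : a ≤ x) (h2 : b ≤ y) (h3 : c ≤ z) (ha : 0 ≤ a)
    (hb : 0 ≤ b) (hc : 0 ≤ c) : a * b * c ≤ x * y * z :=
  mul_le_mul (mul_le_mul h1 h2 hb (ha.trans h1)) h3 hc
    (mul_nonneg (ha.trans h1) (hb.trans h2))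

theorem three_gaps {d u v : ℝ} (hd : 0 < d) (hu : d ≤ |u|) (hv : d ≤ |v|) (huv : d ≤ |u + v|) :
    2 * d ^ 3 ≤ |u * (u + v) * v| := by
  rw [abs_mul, abs_mul]
  rcases le_total 0 u with h1 | h1 <;> rcases le_total 0 v with h2 | h2
  · rw [abs_of_nonneg h1] at hu
    rw [abs_of_nonneg h2] at hv
    rw [abs_of_nonneg h1, abs_of_nonneg h2, abs_of_nonneg (by linarith : 0 ≤ u + v)]
    have := prod3 hu (by linarith : 2 * d ≤ u + v) hv hd.le (by linarith) hd.le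
    nlinarith
  · rw [abs_of_nonneg h1] at hu
    rw [abs_of_nonpos h2] at hv
    rw [abs_of_nonneg h1, abs_of_nonpos h2]
    rcases le_total 0 (u + v) with h3 | h3
    · rw [abs_of_nonneg h3] at huv ⊢
      have := prod3 (by linarith : 2 * d ≤ u) huv hv (by linarith) hd.le hd.le
      nlinarith
    · rw [abs_of_nonpos h3] at huv ⊢
      have := prod3 hu huv (by linarith : 2 * d ≤ -v) hd.le hd.le (by linarith)
      nlinarith
  · rw [abs_of_nonpos h1] at hu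
    rw [abs_of_nonneg h2] at hv
    rw [abs_of_nonpos h1, abs_of_nonneg h2]
    rcases le_total 0 (u + v) with h3 | h3
    · rw [abs_of_nonneg h3] at huv ⊢
      have := prod3 hu huv (by linarith : 2 * d ≤ v) hd.le hd.le (by linarith)
      nlinarith
    · rw [abs_of_nonpos h3] at huv ⊢
      have := prod3 (by linarith : 2 * d ≤ -u) huv hv (by linarith) hd.le hd.le
      nlinarith
  · rw [abs_of_nonpos h1] at hu
    rw [abs_of_nonpos h2] at hv
    rw [abs_of_nonpos h1, abs_of_nonpos h2, abs_of_nonpos (by linarith : u + v ≤ 0)]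
    have := prod3 hu (by linarith : 2 * d ≤ -(u + v)) hv hd.le (by linarith) hd.le
    nlinarith

theorem lower (n : ℕ) (hn : 3 ≤ n) :
    ∃ P : Finset (ℝ × ℝ), P.card = n ∧
      (∀ p ∈ P, p.1 ∈ Set.Icc (0 : ℝ) 1 ∧ p.2 ∈ Set.Icc (0 : ℝ) 1) ∧
      ConvexIndependent ℝ (Subtype.val : ↥(P : Set (ℝ × ℝ)) → ℝ × ℝ) ∧
      ∀ p ∈ P, ∀ q ∈ P, ∀ r ∈ P, p ≠ q → p ≠ r → q ≠ r →
        1 / ((n : ℝ) - 1) ^ 3 ≤ triArea p q r := by
  have hn1 : (0 : ℝ) < (n : ℝ) - 1 := by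
    have : (3 : ℝ) ≤ n := by exact_mod_cast hn
    linarith
  have hd : (0 : ℝ) < 1 / ((n : ℝ) - 1) := by positivity
  have hinj : Function.Injective (fun i : ℕ => (((i : ℝ) / ((n : ℝ) - 1),
      ((i : ℝ) / ((n : ℝ) - 1)) ^ 2) : ℝ × ℝ)) := by
    intro i j hij
    have h0 : (i : ℝ) / ((n : ℝ) - 1) = (j : ℝ) / ((n : ℝ) - 1) := congrArg Prod.fst hij
    have h1 : (i : ℝ) = j := by
      have := congrArg (fun t => t * ((n : ℝ) - 1)) h0
      simpa [div_mul_cancel₀ _ hn1.ne'] using this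
    exact_mod_cast h1
  set P : Finset (ℝ × ℝ) := (range n).image (fun i : ℕ => (((i : ℝ) / ((n : ℝ) - 1),
      ((i : ℝ) / ((n : ℝ) - 1)) ^ 2) : ℝ × ℝ)) with hP
  have hPmem : ∀ p ∈ P, ∃ i : ℕ, i < n ∧ p.1 = (i : ℝ) / ((n : ℝ) - 1) ∧ p.2 = p.1 ^ 2 := by
    intro p hp
    obtain ⟨i, hi, rfl⟩ := mem_image.1 hp
    exact ⟨i, mem_range.1 hi, rfl, rfl⟩
  have hext : ∀ p ∈ P, ∀ q ∈ P, p.1 = q.1 → p = q := by
    intro p hp q hq h
    obtain ⟨-, -, -, hp2⟩ := hPmem p hp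
    obtain ⟨-, -, -, hq2⟩ := hPmem q hq
    exact Prod.ext h (by rw [hp2, hq2, h])
  have hgap : ∀ p ∈ P, ∀ q ∈ P, p ≠ q → 1 / ((n : ℝ) - 1) ≤ |q.1 - p.1| := by
    intro p hp q hq hpq
    obtain ⟨i, -, hi, -⟩ := hPmem p hp
    obtain ⟨j, -, hj, -⟩ := hPmem q hq
    have hij : i ≠ j := by
      intro h
      apply hpq
      apply hext p hp q hq
      rw [hi, hj, h]
    have h1 : (1 : ℝ) ≤ |(j : ℝ) - (i : ℝ)| := by
      have h2 : (j : ℤ) - (i : ℤ) ≠ 0 := by omega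
      have h3 : (1 : ℤ) ≤ |(j : ℤ) - (i : ℤ)| := Int.one_le_abs h2
      have h4 : ((1 : ℤ) : ℝ) ≤ ((|(j : ℤ) - (i : ℤ)| : ℤ) : ℝ) := by exact_mod_cast h3
      simpa using h4
    rw [hi, hj, ← sub_div, abs_div, abs_of_pos hn1]
    exact div_le_div_of_nonneg_right h1 hn1.le
  refine ⟨P, ?_, ?_, ?_, ?_⟩
  · rw [hP, card_image_of_injective _ hinj, card_range]
  · intro p hp
    obtain ⟨i, hi, hp1, hp2⟩ := hPmem p hp
    have hi' : (i : ℝ) ≤ (n : ℝ) - 1 := by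
      have : ((i + 1 : ℕ) : ℝ) ≤ n := by exact_mod_cast hi
      push_cast at this
      linarith
    have h0 : (0 : ℝ) ≤ p.1 := by
      rw [hp1]
      positivity
    have h1 : p.1 ≤ 1 := by
      rw [hp1]
      exact (div_le_one hn1).2 hi'
    refine ⟨⟨h0, h1⟩, ?_, ?_⟩
    · rw [hp2]
      positivity
    · rw [hp2]
      nlinarith
  · rw [convexIndependent_set_iff_notMem_convexHull_sdiff]
    intro q hq hmem
    have hq' : q ∈ P := mem_coe.1 hq
    obtain ⟨-, -, -, hq2⟩ := hPmem q hq'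
    let f : ℝ × ℝ →ₗ[ℝ] ℝ := LinearMap.snd ℝ ℝ ℝ - (2 * q.1) • LinearMap.fst ℝ ℝ ℝ
    have hf : ∀ w : ℝ × ℝ, f w = w.2 - 2 * q.1 * w.1 := fun w => by simp [f]
    have hT : Convex ℝ {w : ℝ × ℝ | -(q.1 ^ 2) < f w} := convex_halfSpace_gt f.isLinear _
    have hsub : ((P : Set (ℝ × ℝ)) \ {q}) ⊆ {w : ℝ × ℝ | -(q.1 ^ 2) < f w} := by
      intro w hw
      have hwP : w ∈ P := mem_coe.1 hw.1
      have hwq : w ≠ q := hw.2
      obtain ⟨-, -, -, hw2⟩ := hPmem w hwP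
      have hne : w.1 - q.1 ≠ 0 := fun h => hwq (hext w hwP q hq' (by linarith))
      have hpos : 0 < (w.1 - q.1) ^ 2 := by positivity
      simp only [Set.mem_ofPred_eq, hf, hw2]
      nlinarith
    have hq3 := convexHull_min hsub hT hmem
    simp only [Set.mem_ofPred_eq, hf, hq2] at hq3
    nlinarith
  · intro p hp q hq r hr hpq hpr hqr
    obtain ⟨-, -, -, hp2⟩ := hPmem p hp
    obtain ⟨-, -, -, hq2⟩ := hPmem q hq
    obtain ⟨-, -, -, hr2⟩ := hPmem r hr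
    have g1 := hgap p hp q hq hpq
    have g2 := hgap q hq r hr hqr
    have g3 := hgap p hp r hr hpr
    have e : (q.1 - p.1) * (r.2 - p.2) - (q.2 - p.2) * (r.1 - p.1)
        = (q.1 - p.1) * ((q.1 - p.1) + (r.1 - q.1)) * (r.1 - q.1) := by
      rw [hp2, hq2, hr2]
      ring
    have h3 := three_gaps hd g1 g2 (by rw [show q.1 - p.1 + (r.1 - q.1) = r.1 - p.1 by ring]; exact g3)
    have e3 : 1 / ((n : ℝ) - 1) ^ 3 = 2 * (1 / ((n : ℝ) - 1)) ^ 3 / 2 := by
      field_simp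
    unfold triArea
    rw [e, e3]
    linarith

/-- **Heilbronn's triangle problem for point sets in convex position.**  Here `triArea p q r`
is the area of the triangle `pqr`, and a finite set is in convex position when no point of it
lies in the convex hull of the others (`ConvexIndependent`).

1. Every set `P` of `n ≥ 7` points of the unit square in convex position contains three
   distinct points spanning a triangle of area at most `152 / (n - 6)^3`.
2. For every `n ≥ 3` there is a set of `n` points of the unit square in convex position such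
   that every triangle spanned by three distinct points of it has area at least
   `1 / (n - 1)^3`. -/
theorem result :
    (∀ P : Finset (ℝ × ℝ),
      (∀ p ∈ P, p.1 ∈ Set.Icc (0 : ℝ) 1 ∧ p.2 ∈ Set.Icc (0 : ℝ) 1) →
      ConvexIndependent ℝ (Subtype.val : ↥(P : Set (ℝ × ℝ)) → ℝ × ℝ) →
      7 ≤ P.card →
      ∃ p ∈ P, ∃ q ∈ P, ∃ r ∈ P, p ≠ q ∧ p ≠ r ∧ q ≠ r ∧
        triArea p q r ≤ 152 / ((P.card : ℝ) - 6) ^ 3) ∧
    (∀ n : ℕ, 3 ≤ n → ∃ P : Finset (ℝ × ℝ), P.card = n ∧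
      (∀ p ∈ P, p.1 ∈ Set.Icc (0 : ℝ) 1 ∧ p.2 ∈ Set.Icc (0 : ℝ) 1) ∧
      ConvexIndependent ℝ (Subtype.val : ↥(P : Set (ℝ × ℝ)) → ℝ × ℝ) ∧
      ∀ p ∈ P, ∀ q ∈ P, ∀ r ∈ P, p ≠ q → p ≠ r → q ≠ r →
        1 / ((n : ℝ) - 1) ^ 3 ≤ triArea p q r) :=
  ⟨upper, lower⟩

end Vale.Agent.Results.P036.B_ConvexPosition
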